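import Vale.Agent.P194.Main

/-!
P194: stable finiteness passes from `K[G/N]` to `K[G]` in characteristic `p`.
-/

universe u v

theorem Vale.Agent.Results.P194.Extension.result :
    ∀ (p : ℕ) [Fact p.Prime] (K : Type u) [DivisionRing K] [CharP K p] (G : Type v) [Group G]
      (N : Subgroup G) [N.Normal],
      (∀ H : Subgroup G, H ≤ N → H.FG → H ≠ ⊥ →
        (∃ χ : H →* Multiplicative (ZMod p), χ ≠ 1) ∨ (∃ χ : H →* Multiplicative ℤ, χ ≠ 1)) →
      (∀ n : ℕ, IsDedekindFiniteMonoid (Matrix (Fin n) (Fin n) (MonoidAlgebra K (G ⧸ N))) →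
        IsDedekindFiniteMonoid (Matrix (Fin n) (Fin n) (MonoidAlgebra K G))) ∧
      (IsDedekindFiniteMonoid (MonoidAlgebra K (G ⧸ N)) →
        IsDedekindFiniteMonoid (MonoidAlgebra K G)) ∧
      (IsStablyFiniteRing (MonoidAlgebra K (G ⧸ N)) → IsStablyFiniteRing (MonoidAlgebra K G)) ∧
      ((∀ g : G, g ∉ N → ∃ R : Subgroup G, N ≤ R ∧ R.Normal ∧ R.FiniteIndex ∧ g ∉ R) →
        IsStablyFiniteRing (MonoidAlgebra K G)) := by
  intro p _ K _ _ G _ N _ hN
  exact Vale.Agent.P194.final p N hN
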